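import Vale.Agent.P204.KCur.Lin
import Vale.Agent.P204.KC.K14

/-!
# P204: the two forms of the definition of Kähler currents
-/

open scoped Manifold ContDiff Topology
open MeasureTheory

namespace Vale.Agent.P204.KCur

open Vale.Agent.P204.DC Vale.Agent.P204K

variable {X : Type*} [TopologicalSpace X] [ChartedSpace E4 X]

open Classical in
/-- extension by zero of a functional on the smooth forms -/
noncomputable def extR (R : SmoothForms E4 X →ₗ[ℝ] ℝ) (a : TwoForm E4 X) : ℝ :=
  if ha : a ∈ SmoothForms E4 X then R ⟨a, ha⟩ else 0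

theorem extR_eq (R : SmoothForms E4 X →ₗ[ℝ] ℝ) {a : TwoForm E4 X} (ha : a ∈ SmoothForms E4 X) :
    extR R a = R ⟨a, ha⟩ := dif_pos ha

variable [IsManifold (𝓡 4) ∞ X]

theorem integrable_q {J : EndField E4 X} (hJ : AlmostComplex J)
    {e : OpenPartialHomeomorph X E4} (he : e ∈ atlas E4 X) {K : Set E4} (hKe : K ⊆ e.target)
    (hK : IsCompact K) {et : TwoForm E4 X} (hs : SmoothForm et) (v : E4) :
    IntegrableOn (fun y => pullForm e.symm et y ![v, endRep e J y v]) K :=
  ((Mfd.q_contOn (X := X) he (J := J) ⟨hJ.smooth, hJ.sq⟩ hs v).mono hKe).integrableOn_compact hK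

theorem integrable_trL {J : EndField E4 X} (hJ : AlmostComplex J)
    {e : OpenPartialHomeomorph X E4} (he : e ∈ atlas E4 X) {K : Set E4} (hKe : K ⊆ e.target)
    (hK : IsCompact K) {et : TwoForm E4 X} (hs : SmoothForm et) :
    IntegrableOn (fun y => trL e J et y) K :=
  ((Mfd.trE_contOn (X := X) he (J := J) ⟨hJ.smooth, hJ.sq⟩ hs).mono hKe).integrableOn_compact hK

theorem hasKaehlerCurrent_of_lin {J : EndField E4 X} (hJ : AlmostComplex J)
    {R : SmoothForms E4 X →ₗ[ℝ] ℝ} (h : KaehlerCurrentL J R) : HasKaehlerCurrent J := by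
  refine ⟨extR R, ⟨?_, ?_, ?_, ?_⟩⟩
  · intro a b ha hb
    have hab : (fun x => a x + b x) ∈ SmoothForms E4 X := (SmoothForms E4 X).add_mem ha hb
    rw [extR_eq R hab, extR_eq R ha, extR_eq R hb, ← map_add]
    rfl
  · intro c a ha
    have hca : (fun x => c • a x) ∈ SmoothForms E4 X := (SmoothForms E4 X).smul_mem c ha
    rw [extR_eq R hca, extR_eq R ha, ← smul_eq_mul, ← map_smul]
    rfl
  · intro th hs hth
    rw [extR_eq R hs]
    exact h.closed ⟨th, hs⟩ hth
  · intro e he K hKe hK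
    obtain ⟨ε, hε, hb⟩ := h.strictlyPositive e he K hKe hK
    refine ⟨ε / 8, by positivity, fun et hs hn v hv => ?_⟩
    rw [extR_eq R hs]
    have h1 : ∫ y in K, pullForm e.symm et y ![v, endRep e J y v] ≤ ∫ y in K, 8 * trL e J et y := by
      refine setIntegral_mono_on (integrable_q hJ he hKe hK hs v)
        ((integrable_trL hJ he hKe hK hs).const_mul 8) hK.measurableSet fun y hy => ?_
      exact Mfd.q_le_tr (X := X) he (hKe hy) (J := J) (fun x u => hn x u) hv
    rw [integral_const_mul] at h1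
    have h2 : ε * ∫ y in K, trL e J et y ≤ R ⟨et, hs⟩ := hb ⟨et, hs⟩ hn
    calc ε / 8 * ∫ y in K, pullForm e.symm et y ![v, endRep e J y v]
        ≤ ε / 8 * (8 * ∫ y in K, trL e J et y) := by gcongr
      _ = ε * ∫ y in K, trL e J et y := by ring
      _ ≤ _ := h2

theorem lin_of_hasKaehlerCurrent {J : EndField E4 X} (hJ : AlmostComplex J)
    (h : HasKaehlerCurrent J) : ∃ R' : SmoothForms E4 X →ₗ[ℝ] ℝ, KaehlerCurrentL J R' := by
  obtain ⟨R, h⟩ := h
  refine ⟨{ toFun := fun a => R (a : TwoForm E4 X), map_add' := fun a b => ?_,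
            map_smul' := fun c a => ?_ }, ⟨?_, ?_⟩⟩
  · exact h.add _ _ a.2 b.2
  · exact h.smul c _ a.2
  · intro th hth
    exact h.closed _ th.2 hth
  · intro e he K hKe hK
    obtain ⟨ε, hε, hb⟩ := h.strictlyPositive e he K hKe hK
    refine ⟨ε / 4, by positivity, fun et hn => ?_⟩
    have h1 : ∀ i : Fin 4, ε * ∫ y in K, pullForm e.symm (et : TwoForm E4 X) y
        ![EuclideanSpace.single i 1, endRep e J y (EuclideanSpace.single i 1)] ≤
        R (et : TwoForm E4 X) := fun i => hb _ et.2 hn _ (by simp)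
    have h2 : ∫ y in K, trL e J (et : TwoForm E4 X) y =
        ∑ i : Fin 4, ∫ y in K, pullForm e.symm (et : TwoForm E4 X) y
          ![EuclideanSpace.single i 1, endRep e J y (EuclideanSpace.single i 1)] := by
      rw [← integral_finsetSum _ fun i _ => integrable_q hJ he hKe hK et.2 _]
      refine setIntegral_congr_fun hK.measurableSet fun y hy => ?_
      exact Mfd.trE_sum (X := X) he (hKe hy) J (et : TwoForm E4 X)
    have h3 : ε / 4 * ∫ y in K, trL e J (et : TwoForm E4 X) y ≤ R (et : TwoForm E4 X) := by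
      rw [h2, Fin.sum_univ_four]
      linarith [h1 0, h1 1, h1 2, h1 3]
    exact h3

omit [IsManifold (𝓡 4) ∞ X] in
theorem criterion_of_lin.{u} (h : KaehlerCriterionL.{u}) : KaehlerCriterion.{u} := by
  intro X _ _ _ _ _ J hJ
  obtain ⟨h1, h2⟩ := h X J hJ
  exact ⟨h1, h2.trans ⟨fun ⟨R, hR⟩ => hasKaehlerCurrent_of_lin hJ hR,
    fun hR => lin_of_hasKaehlerCurrent hJ hR⟩⟩

end Vale.Agent.P204.KCur
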