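import Vale.Agent.P204.KCur.Defs

/-!
# P204: Kähler currents as linear maps on the space of smooth two-forms
-/

open scoped Manifold ContDiff Topology
open MeasureTheory

namespace Vale.Agent.P204.KCur

/-- `ℝ⁴` -/
abbrev E4 := EuclideanSpace ℝ (Fin 4)

open Vale.Agent.P204.DC

section General

variable {E : Type*} [NormedAddCommGroup E] [NormedSpace ℝ E]
variable {X : Type*} [TopologicalSpace X] [ChartedSpace E X]

theorem pullForm_add (f : E → X) (om om' : TwoForm E X) :
    pullForm f (om + om') = pullForm f om + pullForm f om' := rfl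

theorem pullForm_smul (f : E → X) (c : ℝ) (om : TwoForm E X) :
    pullForm f (c • om) = c • pullForm f om := rfl

variable (E X) in
/-- The real vector space of smooth two-forms. -/
def SmoothForms : Submodule ℝ (TwoForm E X) where
  carrier := {om | SmoothForm om}
  add_mem' := by
    intro om om' h h' e he
    rw [pullForm_add]
    exact (h e he).add (h' e he)
  zero_mem' := by
    intro e _
    exact contDiffOn_const (c := 0)
  smul_mem' := by
    intro c om h e he
    rw [pullForm_smul]
    exact (h e he).const_smul c

end General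

section Four

variable {X : Type*} [TopologicalSpace X] [ChartedSpace E4 X]

/-- The trace `∑ i, η(∂ᵢ, J ∂ᵢ)` of a two-form in a chart `e`, at the point with coordinates `y`;
here `∂ᵢ` are the coordinate vector fields of the chart. -/
noncomputable def trL (e : OpenPartialHomeomorph X E4) (J : EndField E4 X) (et : TwoForm E4 X)
    (y : E4) : ℝ :=
  ∑ i : Fin 4, et (e.symm y)
    ![mfderiv 𝓘(ℝ, E4) 𝓘(ℝ, E4) e.symm y (EuclideanSpace.single i 1),
      J (e.symm y) (mfderiv 𝓘(ℝ, E4) 𝓘(ℝ, E4) e.symm y (EuclideanSpace.single i 1))]

/-- A Kähler current of `(X, J)`, `dim X = 4`: a linear functional `R` on the smooth two-forms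
which is closed (it vanishes on the exterior derivatives of smooth one-forms) and strictly
positive: in every chart and on every compact set `K` it is bounded below on the nonnegative forms
by a positive multiple of `η ↦ ∫_K ∑ i, η(∂ᵢ, J ∂ᵢ)`. -/
structure KaehlerCurrentL (J : EndField E4 X) (R : SmoothForms E4 X →ₗ[ℝ] ℝ) : Prop where
  closed : ∀ th : SmoothForms E4 X, IsExact (th : TwoForm E4 X) → R th = 0
  strictlyPositive : ∀ e ∈ atlas E4 X, ∀ K ⊆ e.target, IsCompact K → ∃ ε : ℝ, 0 < ε ∧
    ∀ et : SmoothForms E4 X, Nonneg J (et : TwoForm E4 X) →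
      ε * ∫ y in K, trL e J (et : TwoForm E4 X) y ≤ R et

end Four

/-- The criterion: an almost complex structure on a closed four-manifold is compatible with a
symplectic form if and only if it is tamed by a symplectic form, if and only if it has a Kähler
current. -/
def KaehlerCriterionL.{u} : Prop :=
  ∀ (X : Type u) [TopologicalSpace X] [ChartedSpace E4 X]
    [IsManifold (𝓡 4) ∞ X] [CompactSpace X] [T2Space X]
    (J : EndField E4 X), AlmostComplex J →
    ((∃ om : TwoForm E4 X, Symplectic om ∧ Compatible om J) ↔
      ∃ om : TwoForm E4 X, Symplectic om ∧ Tames om J) ∧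
    ((∃ om : TwoForm E4 X, Symplectic om ∧ Compatible om J) ↔
      ∃ R : SmoothForms E4 X →ₗ[ℝ] ℝ, KaehlerCurrentL J R)

end Vale.Agent.P204.KCur
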