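import Vale.Agent.P204.KC.K17
import Vale.Agent.P204.KCur.Lin

/-!
# P204: the Kähler current criterion for manifolds in `Type`
-/

open scoped Manifold ContDiff Topology
open MeasureTheory

namespace Vale.Agent.P204.KCur

open Vale.Agent.P204.DC Vale.Agent.P204K

variable {X : Type} [TopologicalSpace X] [ChartedSpace E4 X] [IsManifold (𝓡 4) ∞ X]
  [CompactSpace X] [T2Space X]

omit [IsManifold (𝓡 4) ∞ X] [CompactSpace X] [T2Space X] in
theorem compatible_of_isEmpty [IsEmpty X] (J : EndField E4 X) :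
    ∃ om : TwoForm E4 X, Symplectic om ∧ Compatible om J := by
  refine ⟨fun x => isEmptyElim x, ⟨fun e _ y _ => isEmptyElim (e.symm y),
    fun e _ y _ => isEmptyElim (e.symm y), fun x => isEmptyElim x⟩,
    fun x => isEmptyElim x, fun x => isEmptyElim x⟩

theorem compatible_of_kaehlerCurrent {J : EndField E4 X} (hJ : AlmostComplex J)
    {R : SmoothForms E4 X →ₗ[ℝ] ℝ} (hR : KaehlerCurrentL J R) :
    ∃ om : TwoForm E4 X, Symplectic om ∧ Compatible om J := by
  rcases isEmpty_or_nonempty X with hX | hX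
  · exact compatible_of_isEmpty J
  · obtain ⟨om, h1, h2⟩ := Mfd.compatible_of_current (X := X) (J := J) ⟨hJ.smooth, hJ.sq⟩
      (SmoothForms E4 X) (fun et => Iff.rfl) R (fun th hth => hR.closed th hth)
      (fun e he K hKe hK => hR.strictlyPositive e he K hKe hK)
    exact ⟨om, ⟨h1.smooth, h1.closed, h1.nondegenerate⟩, h2.tames, h2.invariant⟩

theorem kaehlerCurrent_of_tames {J : EndField E4 X} (hJ : AlmostComplex J)
    {om : TwoForm E4 X} (hom : Symplectic om) (hT : Tames om J) :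
    ∃ R : SmoothForms E4 X →ₗ[ℝ] ℝ, KaehlerCurrentL J R := by
  obtain ⟨R, h1, h2⟩ := Mfd.current_of_tames (X := X) (J := J) ⟨hJ.smooth, hJ.sq⟩
    (SmoothForms E4 X) (fun et => Iff.rfl) (om := om) ⟨hom.smooth, hom.closed, hom.nondegenerate⟩ hT
  exact ⟨R, h1, h2⟩

theorem kaehlerCriterion_zero : KaehlerCriterionL.{0} := by
  intro X _ _ _ _ _ J hJ
  have hab : (∃ om : TwoForm E4 X, Symplectic om ∧ Compatible om J) →
      ∃ om : TwoForm E4 X, Symplectic om ∧ Tames om J :=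
    fun ⟨om, h1, h2⟩ => ⟨om, h1, h2.tames⟩
  have hbc : (∃ om : TwoForm E4 X, Symplectic om ∧ Tames om J) →
      ∃ R : SmoothForms E4 X →ₗ[ℝ] ℝ, KaehlerCurrentL J R :=
    fun ⟨om, h1, h2⟩ => kaehlerCurrent_of_tames hJ h1 h2
  have hca : (∃ R : SmoothForms E4 X →ₗ[ℝ] ℝ, KaehlerCurrentL J R) →
      ∃ om : TwoForm E4 X, Symplectic om ∧ Compatible om J :=
    fun ⟨R, hR⟩ => compatible_of_kaehlerCurrent hJ hR
  exact ⟨⟨hab, fun h => hca (hbc h)⟩, fun h => hbc (hab h), hca⟩

end Vale.Agent.P204.KCur
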