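import Vale.Agent.P204.DC.Stmt

/-!
# P204: Kähler currents on almost complex manifolds

The two-forms, smooth forms, almost complex structures etc. are those of the statement
`Vale.Agent.P204.DC.Donaldson` (file `Vale/Agent/P204/DC/Stmt.lean`).
-/

open scoped Manifold ContDiff Topology
open MeasureTheory

namespace Vale.Agent.P204.KCur

open Vale.Agent.P204.DC

section General

variable {E : Type*} [NormedAddCommGroup E] [NormedSpace ℝ E]
variable {X : Type*} [TopologicalSpace X] [ChartedSpace E X]

variable (E X) in
/-- A (not necessarily smooth) real one-form on `X`: a linear form (an alternating form of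
degree one) on every tangent space. -/
abbrev OneForm := ∀ x : X, TangentSpace 𝓘(ℝ, E) x [⋀^Fin 1]→L[ℝ] ℝ

/-- The pullback of the one-form `al` by a map `f : E → X`. For `f = e.symm`, the inverse of a
chart `e`, it is the coordinate expression of `al` in the chart `e`. -/
noncomputable def pullOne (f : E → X) (al : OneForm E X) : E → E [⋀^Fin 1]→L[ℝ] ℝ :=
  fun y => (al (f y)).compContinuousLinearMap (mfderiv 𝓘(ℝ, E) 𝓘(ℝ, E) f y)

/-- `th` is the exterior derivative of a smooth one-form. -/
def IsExact (th : TwoForm E X) : Prop :=
  ∃ al : OneForm E X, (∀ e ∈ atlas E X, ContDiffOn ℝ ∞ (pullOne e.symm al) e.target) ∧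
    ∀ e ∈ atlas E X, ∀ y ∈ e.target, pullForm e.symm th y = extDeriv (pullOne e.symm al) y

/-- A two-form which is nonnegative on the complex lines `⟨v, J v⟩`. -/
def Nonneg (J : EndField E X) (et : TwoForm E X) : Prop :=
  ∀ x (v : TangentSpace 𝓘(ℝ, E) x), 0 ≤ et x ![v, J x v]

/-- `J` is compatible with a symplectic form. -/
def IsAlmostKaehler (J : EndField E X) : Prop :=
  ∃ om : TwoForm E X, Symplectic om ∧ Compatible om J

/-- `J` is tamed by a symplectic form. -/
def IsTamed (J : EndField E X) : Prop :=
  ∃ om : TwoForm E X, Symplectic om ∧ Tames om J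

/-- A Kähler current of `(X, J)`: a linear functional `R` on the smooth two-forms (its values on
other forms are irrelevant) which is closed (it vanishes on the exterior derivatives of smooth
one-forms) and strictly positive: in every chart and on every compact set `K` there is an
`ε > 0` such that `R η ≥ ε ∫_K η(v, J v)` for all nonnegative `η` and all constant coordinate
vector fields `v` with `‖v‖ ≤ 1`. -/
structure KaehlerCurrent [MeasureSpace E] (J : EndField E X) (R : TwoForm E X → ℝ) : Prop where
  add : ∀ a b : TwoForm E X, SmoothForm a → SmoothForm b → R (fun x => a x + b x) = R a + R b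
  smul : ∀ (c : ℝ) (a : TwoForm E X), SmoothForm a → R (fun x => c • a x) = c * R a
  closed : ∀ th : TwoForm E X, SmoothForm th → IsExact th → R th = 0
  strictlyPositive : ∀ e ∈ atlas E X, ∀ K ⊆ e.target, IsCompact K → ∃ ε : ℝ, 0 < ε ∧
    ∀ et : TwoForm E X, SmoothForm et → Nonneg J et → ∀ v : E, ‖v‖ ≤ 1 →
      ε * ∫ y in K, pullForm e.symm et y ![v, endRep e J y v] ≤ R et

/-- `J` has a Kähler current. -/
def HasKaehlerCurrent [MeasureSpace E] (J : EndField E X) : Prop :=
  ∃ R : TwoForm E X → ℝ, KaehlerCurrent J R

end General

/-- The criterion: a smooth almost complex structure on a closed four-manifold is compatible with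
a symplectic form if and only if it is tamed by a symplectic form, if and only if it has a Kähler
current. -/
def KaehlerCriterion.{u} : Prop :=
  ∀ (X : Type u) [TopologicalSpace X] [ChartedSpace (EuclideanSpace ℝ (Fin 4)) X]
    [IsManifold (𝓡 4) ∞ X] [CompactSpace X] [T2Space X]
    (J : EndField (EuclideanSpace ℝ (Fin 4)) X), AlmostComplex J →
    (IsAlmostKaehler J ↔ IsTamed J) ∧ (IsAlmostKaehler J ↔ HasKaehlerCurrent J)

end Vale.Agent.P204.KCur
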